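import Vale.Agent.P092.H720.Rp.Aut

/-!
P092, project RP (helper720), [RP-AUT]: groups between the group generated by the exponentials and
the group of all automorphisms.
-/

set_option linter.all false

open Filter Topology Module

namespace Vale.Agent.P092.H720.Rp

open Vale.Agent.P092.H213.Rp
open Vale.Agent.P092.H144.Rp (eu_lie eu_inj_right eu_conj' eu_smul_apply span_nil)

variable {k : Type} [NontriviallyNormedField k] {L : Type} [LieRing L] [LieAlgebra k L] {n : ℕ}
  {G : Type} [Group G]

section top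

variable [TopologicalSpace G]

/-- `ρ` identifies the topological group `G` with a group of automorphisms of the simple, isotropic
Lie algebra `L` which contains the exponentials of all ad-nilpotent elements. -/
structure RA (b : Basis (Fin n) k L) (ρ : G →* Module.End k L) : Prop where
  simple : LieAlgebra.IsSimple k L
  iso : ∃ x : L, x ≠ 0 ∧ Nil k x
  emb : IsEmbedding fun g => LinearMap.toMatrix b b (ρ g)
  lie : ∀ g (x y : L), ρ g ⁅x, y⁆ = ⁅ρ g x, ρ g y⁆
  full : ∀ x : L, Nil k x → ∃ g, ρ g = eu k x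

end top

/-- the subgroup generated by the exponentials -/
def Ng (ρ : G →* Module.End k L) : Subgroup G :=
  Subgroup.closure {g : G | ∃ x : L, Nil k x ∧ ρ g = eu k x}

variable [TopologicalSpace G] {b : Basis (Fin n) k L} {ρ : G →* Module.End k L}

theorem RA.inj (h : RA b ρ) : Function.Injective ρ := fun g g' e => h.emb.injective (by
  show LinearMap.toMatrix b b (ρ g) = LinearMap.toMatrix b b (ρ g')
  rw [e])

/-- the exponentials generate a group of the class `RP0` -/
theorem RA.rp0 (h : RA b ρ) : RP0 b (ρ.comp (Ng ρ).subtype) where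
  simple := h.simple
  iso := h.iso
  emb := h.emb.comp IsEmbedding.subtypeVal
  lie g := h.lie g
  full x hx := by
    obtain ⟨g, hg⟩ := h.full x hx
    exact ⟨⟨g, Subgroup.subset_closure ⟨x, hx, hg⟩⟩, hg⟩
  gen := Subgroup.closure_closure_coe_preimage

/-- the homomorphism to the group of automorphisms -/
def toA (hl : ∀ g (x y : L), ρ g ⁅x, y⁆ = ⁅ρ g x, ρ g y⁆) : G →* AutS k L :=
  ρ.toHomUnits.codRestrict (AutS k L) fun g => hl g

theorem toA_apply (hl : ∀ g (x y : L), ρ g ⁅x, y⁆ = ⁅ρ g x, ρ g y⁆) (g : G) :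
    ((toA hl g : (Module.End k L)ˣ) : Module.End k L) = ρ g := rfl

theorem mem_Ng_of [CharZero k] (h : RA b ρ) {g : G}
    (hg : ((toA h.lie g : AutS k L) : (Module.End k L)ˣ) ∈ ES k L) : g ∈ Ng ρ := by
  have h1 : ES k L ≤ (Ng ρ).map ρ.toHomUnits := by
    unfold ES
    rw [Subgroup.closure_le]
    rintro u ⟨x, hx, hu⟩
    obtain ⟨g', hg'⟩ := h.full x hx
    refine ⟨g', Subgroup.subset_closure ⟨x, hx, hg'⟩, Units.ext ?_⟩
    rw [hu, ← hg']
    rfl
  obtain ⟨g', hg', e⟩ := h1 hg
  have h2 : ρ g' = ρ g := congrArg Units.val e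
  rw [← h.inj h2]
  exact hg'

theorem RA.normal [CharZero k] (h : RA b ρ) : (Ng ρ).Normal where
  conj_mem := by
    intro n hn g
    haveI : Module.Finite k L := Module.Finite.of_basis b
    refine mem_Ng_of h ?_
    have h1 : ((toA h.lie n : AutS k L) : (Module.End k L)ˣ) ∈ ES k L := by
      have h2 : Ng ρ ≤ ((ES k L).subgroupOf (AutS k L)).comap (toA h.lie) := by
        unfold Ng
        rw [Subgroup.closure_le]
        rintro u ⟨x, hx, hu⟩
        exact Subgroup.subset_closure ⟨x, hx, hu⟩
      exact h2 hn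
    rw [map_mul, map_mul, map_inv]
    exact es_conj (toA h.lie g).2 h1

theorem RA.opn [CharZero k] [CompleteSpace k] [IsTopologicalGroup G] (h : RA b ρ) :
    IsOpen (Ng ρ : Set G) := by
  haveI : Module.Finite k L := Module.Finite.of_basis b
  refine Subgroup.isOpen_of_mem_nhds (Ng ρ) (g := 1) ?_
  have h1 := h.emb.continuous.tendsto 1
  rw [map_one, LinearMap.toMatrix_one] at h1
  filter_upwards [h1.eventually (es_nhds h.simple h.iso b)] with g hg
  exact mem_Ng_of h (hg _ (toA h.lie g).2 rfl)

theorem RA.fin [CharZero k] (h : RA b ρ)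
    (hf : Finite (AutS k L ⧸ (ES k L).subgroupOf (AutS k L))) : (Ng ρ).FiniteIndex := by
  haveI : Module.Finite k L := Module.Finite.of_basis b
  haveI : ((ES k L).subgroupOf (AutS k L)).Normal := es_normal
  have h1 : ((QuotientGroup.mk' ((ES k L).subgroupOf (AutS k L))).comp (toA h.lie)).ker ≤ Ng ρ := by
    intro g hg
    rw [MonoidHom.mem_ker, MonoidHom.comp_apply, ← MonoidHom.mem_ker, QuotientGroup.ker_mk',
      Subgroup.mem_subgroupOf] at hg
    exact mem_Ng_of h hg
  haveI := Subgroup.finiteIndex_ker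
    ((QuotientGroup.mk' ((ES k L).subgroupOf (AutS k L))).comp (toA h.lie))
  exact Subgroup.finiteIndex_of_le h1

end Vale.Agent.P092.H720.Rp
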