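import Vale.Agent.P092.H213.Rp.Defs
import Mathlib.LinearAlgebra.Matrix.ToLinearEquiv
import Mathlib.LinearAlgebra.Matrix.Adjugate

/-!
P092, project RP (helper720), [RP-POW]: the Cartan matrix is nondegenerate, the fundamental coweights are
elements of `L`, a power of every torus element is in the group.
-/

set_option linter.all false

open Module

namespace Vale.Agent.P092.H720.Rp

open Vale.Agent.P092.H213.Rp

section lc

variable {k : Type} [Field k] {r : ℕ}

/-- the linear form `c` at the weight `μ` -/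
def lc (c : Fin r → k) (μ : Fin r → ℤ) : k := ∑ j, (μ j : k) * c j

theorem lc_add (c : Fin r → k) (μ ν : Fin r → ℤ) : lc c (μ + ν) = lc c μ + lc c ν := by
  unfold lc
  rw [← Finset.sum_add_distrib]
  refine Finset.sum_congr rfl fun j _ => ?_
  rw [Pi.add_apply]
  push_cast
  ring

theorem lc_neg (c : Fin r → k) (μ : Fin r → ℤ) : lc c (-μ) = -lc c μ := by
  unfold lc
  rw [← Finset.sum_neg_distrib]
  refine Finset.sum_congr rfl fun j _ => ?_
  rw [Pi.neg_apply]
  push_cast
  ring

theorem lc_zero (c : Fin r → k) : lc c 0 = 0 := by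
  unfold lc
  exact Finset.sum_eq_zero fun j _ => by simp

theorem lc_single (c : Fin r → k) (a : Fin r) : lc c (Pi.single a 1) = c a := by
  unfold lc
  rw [Finset.sum_eq_single a]
  · simp
  · intro j _ hj
    rw [Pi.single_eq_of_ne hj]
    simp
  · intro h
    exact absurd (Finset.mem_univ _) h

theorem lc_int (c : Fin r → ℤ) (μ : Fin r → ℤ) :
    lc (fun j => (c j : k)) μ = ((∑ j, μ j * c j : ℤ) : k) := by
  unfold lc
  push_cast
  rfl

end lc

section alg

variable {k L : Type} [Field k] [CharZero k] [LieRing L] [LieAlgebra k L] {n r : ℕ}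
  {b : Basis (Fin n) k L} {wt : Fin n → Fin r → ℤ} {E F H : Fin r → L}

theorem b_mem_W (i : Fin n) : b i ∈ W b wt (wt i) := Submodule.subset_span ⟨i, rfl, rfl⟩

/-- the diagonal map with eigenvalues `lc c (wt i)` -/
noncomputable def dg (b : Basis (Fin n) k L) (wt : Fin n → Fin r → ℤ) (c : Fin r → k) :
    L →ₗ[k] L := b.constr k fun i => lc c (wt i) • b i

theorem dg_b (c : Fin r → k) (i : Fin n) : dg b wt c (b i) = lc c (wt i) • b i := by
  unfold dg
  rw [Basis.constr_basis]

theorem dg_W (c : Fin r → k) {μ : Fin r → ℤ} {x : L} (hx : x ∈ W b wt μ) :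
    dg b wt c x = lc c μ • x := by
  refine Submodule.span_induction (p := fun x _ => dg b wt c x = lc c μ • x) ?_ ?_ ?_ ?_ hx
  · rintro _ ⟨i, hi, rfl⟩
    rw [dg_b, hi]
  · rw [map_zero, smul_zero]
  · intro x y _ _ h1 h2
    rw [map_add, h1, h2, smul_add]
  · intro a x _ h
    rw [map_smul, h, smul_comm]

theorem dg_lie (hg : ∀ μ ν : Fin r → ℤ, ∀ x ∈ W b wt μ, ∀ y ∈ W b wt ν, ⁅x, y⁆ ∈ W b wt (μ + ν))
    (c : Fin r → k) (x y : L) : dg b wt c ⁅x, y⁆ = ⁅dg b wt c x, y⁆ + ⁅x, dg b wt c y⁆ := by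
  have key : ∀ i j, dg b wt c ⁅b i, b j⁆ = ⁅dg b wt c (b i), b j⁆ + ⁅b i, dg b wt c (b j)⁆ := by
    intro i j
    rw [dg_W c (hg _ _ _ (b_mem_W i) _ (b_mem_W j)), dg_b, dg_b, lc_add, add_smul, smul_lie,
      lie_smul]
  -- extend linearly
  have e1 : ∀ i, ∀ y, dg b wt c ⁅b i, y⁆ = ⁅dg b wt c (b i), y⁆ + ⁅b i, dg b wt c y⁆ := by
    intro i y
    have h1 : (dg b wt c) ∘ₗ (LieAlgebra.ad k L (b i) : L →ₗ[k] L) =
        (LieAlgebra.ad k L (dg b wt c (b i)) : L →ₗ[k] L) +
          (LieAlgebra.ad k L (b i) : L →ₗ[k] L) ∘ₗ dg b wt c := by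
      refine b.ext fun j => ?_
      simpa using key i j
    have h2 := LinearMap.congr_fun h1 y
    simpa using h2
  have h1 : (dg b wt c) ∘ₗ (-(LieAlgebra.ad k L y : L →ₗ[k] L)) =
      (-(LieAlgebra.ad k L y : L →ₗ[k] L)) ∘ₗ dg b wt c -
        (LieAlgebra.ad k L (dg b wt c y) : L →ₗ[k] L) := by
    refine b.ext fun i => ?_
    have h3 := e1 i y
    simp only [LinearMap.comp_apply, LinearMap.neg_apply, LieAlgebra.ad_apply,
      LinearMap.sub_apply, lie_skew] at h3 ⊢
    rw [h3, ← lie_skew (b i) (dg b wt c y)]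
    abel
  have h2 := LinearMap.congr_fun h1 x
  simp only [LinearMap.comp_apply, LinearMap.neg_apply, LieAlgebra.ad_apply,
    LinearMap.sub_apply, lie_skew] at h2
  rw [h2, ← lie_skew x (dg b wt c y)]
  abel

/-- **coweights**: every linear form of the weights is given by an element of `L`. -/
theorem exists_h [LieAlgebra.IsKilling k L]
    (hg : ∀ μ ν : Fin r → ℤ, ∀ x ∈ W b wt μ, ∀ y ∈ W b wt ν, ⁅x, y⁆ ∈ W b wt (μ + ν))
    (c : Fin r → k) : ∃ h : L, LieAlgebra.ad k L h = dg b wt c := by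
  haveI : Module.Finite k L := Module.Finite.of_basis b
  let D : LieDerivation k L L :=
    { toLinearMap := dg b wt c
      leibniz' := fun x y => by
        change dg b wt c ⁅x, y⁆ = ⁅x, dg b wt c y⁆ - ⁅y, dg b wt c x⁆
        rw [dg_lie hg, ← lie_skew y]
        abel }
  obtain ⟨h, hh⟩ := LieDerivation.IsKilling.exists_eq_ad D
  refine ⟨h, ?_⟩
  refine LinearMap.ext fun x => ?_
  have h1 := congrArg (fun D : LieDerivation k L L => D x) hh
  have h2 : ⁅h, x⁆ = D x := by simpa using h1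
  exact h2

theorem trace_dg (c c' : Fin r → k) :
    LinearMap.trace k L (dg b wt c ∘ₗ dg b wt c') = ∑ i, lc c (wt i) * lc c' (wt i) := by
  rw [LinearMap.trace_eq_matrix_trace k b, Matrix.trace]
  refine Finset.sum_congr rfl fun i _ => ?_
  rw [Matrix.diag_apply, LinearMap.toMatrix_apply, LinearMap.comp_apply, dg_b, map_smul, dg_b,
    smul_smul, map_smul]
  simp [mul_comm]

/-- the basic identity: `κ([x,y], h) = c(α) κ(x,y)`. -/
theorem kill_id [LieAlgebra.IsKilling k L]
    (hg : ∀ μ ν : Fin r → ℤ, ∀ x ∈ W b wt μ, ∀ y ∈ W b wt ν, ⁅x, y⁆ ∈ W b wt (μ + ν))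
    {α : Fin r → ℤ} {x y hh : L} (hy : y ∈ W b wt (-α)) (hxy : ⁅x, y⁆ = hh) (c₀ c : Fin r → k)
    (h0 : LieAlgebra.ad k L hh = dg b wt c₀) :
    ∑ i, lc c₀ (wt i) * lc c (wt i) = lc c α * killingForm k L x y := by
  obtain ⟨h, hc⟩ := exists_h hg c
  have h1 : killingForm k L hh h = ∑ i, lc c₀ (wt i) * lc c (wt i) := by
    rw [killingForm_apply_apply, h0, hc, trace_dg]
  rw [← h1, ← hxy]
  rw [show killingForm k L ⁅x, y⁆ h = killingForm k L x ⁅y, h⁆ from
    LieModule.traceForm_apply_lie_apply k L L x y h]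
  have h2 : ⁅h, y⁆ = lc c (-α) • y := by
    have h3 := LinearMap.congr_fun hc y
    rw [dg_W c hy, LieAlgebra.ad_apply] at h3
    exact h3
  rw [← lie_skew, h2, lc_neg, neg_smul, neg_neg, map_smul, smul_eq_mul]

variable [LieAlgebra.IsKilling k L] (hR : Rt b wt E F H)

include hR in
/-- **the Cartan matrix** -/
theorem exists_cartan : ∃ C : Matrix (Fin r) (Fin r) ℤ,
    (∀ a, ∀ i, ⁅H a, b i⁆ = ((∑ j, wt i j * C a j : ℤ) : k) • b i) ∧ C.det ≠ 0 := by
  choose C hC using hR.wH
  refine ⟨C, hC, ?_⟩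
  have had : ∀ a, LieAlgebra.ad k L (H a) = dg b wt fun j => (C a j : k) := by
    intro a
    refine b.ext fun i => ?_
    rw [LieAlgebra.ad_apply, hC, dg_b, lc_int]
  have hdiag : ∀ a, C a a = 2 := by
    intro a
    have h1 : ⁅H a, E a⁆ = (2 : k) • E a := by
      have := (hR.tri a).lie_h_e_nsmul
      rw [this, ← Nat.cast_smul_eq_nsmul k]
      norm_num
    have h2 : ⁅H a, E a⁆ = (C a a : k) • E a := by
      have h3 := LinearMap.congr_fun (had a) (E a)
      rw [dg_W _ (hR.wE a), LieAlgebra.ad_apply, lc_single] at h3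
      exact h3
    rw [h1] at h2
    have h4 : ((2 : k) - (C a a : k)) • E a = 0 := by rw [sub_smul, h2, sub_self]
    rcases smul_eq_zero.1 h4 with h5 | h5
    · have h6 : ((2 : ℤ) : k) = ((C a a : ℤ) : k) := by
        push_cast
        exact sub_eq_zero.1 h5
      exact (Int.cast_injective h6).symm
    · exact absurd h5 (hR.tri a).e_ne_zero
  -- the identity over `ℤ`
  have hid : ∀ a (c : Fin r → ℤ), 2 * ∑ i, (∑ j, wt i j * C a j) * (∑ j, wt i j * c j) =
      c a * ∑ i, (∑ j, wt i j * C a j) ^ 2 := by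
    intro a c
    have h1 := kill_id (b := b) hR.grad (hR.wF a) (hR.tri a).lie_e_f (fun j => (C a j : k))
      (fun j => (c j : k)) (had a)
    have h2 := kill_id (b := b) hR.grad (hR.wF a) (hR.tri a).lie_e_f (fun j => (C a j : k))
      (fun j => (C a j : k)) (had a)
    rw [lc_single] at h1 h2
    rw [hdiag] at h2
    simp only [lc_int] at h1 h2
    have h3 : ((2 * ∑ i, (∑ j, wt i j * C a j) * (∑ j, wt i j * c j) : ℤ) : k) =
        ((c a * ∑ i, (∑ j, wt i j * C a j) ^ 2 : ℤ) : k) := by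
      have h4 : ((∑ i, (∑ j, wt i j * C a j) * (∑ j, wt i j * c j) : ℤ) : k) =
          ∑ i, ((∑ j, wt i j * C a j : ℤ) : k) * ((∑ j, wt i j * c j : ℤ) : k) := by
        rw [Int.cast_sum]
        exact Finset.sum_congr rfl fun i _ => Int.cast_mul _ _
      have h5 : ((∑ i, (∑ j, wt i j * C a j) ^ 2 : ℤ) : k) =
          ∑ i, ((∑ j, wt i j * C a j : ℤ) : k) * ((∑ j, wt i j * C a j : ℤ) : k) := by
        rw [Int.cast_sum]
        exact Finset.sum_congr rfl fun i _ => by rw [Int.cast_pow, sq]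
      rw [Int.cast_mul, Int.cast_mul, h4, h5, h1, h2]
      push_cast
      ring
    exact Int.cast_injective h3
  intro hdet
  obtain ⟨v, hv0, hv⟩ := Matrix.exists_vecMul_eq_zero_iff.2 hdet
  apply hv0
  funext a
  have hsum : ∀ i, ∑ a', v a' * (∑ j, wt i j * C a' j) = 0 := by
    intro i
    have h1 : ∑ a', v a' * (∑ j, wt i j * C a' j) = ∑ j, wt i j * (Matrix.vecMul v C) j := by
      simp only [Finset.mul_sum, Matrix.vecMul, dotProduct]
      rw [Finset.sum_comm]
      refine Finset.sum_congr rfl fun j _ => Finset.sum_congr rfl fun a' _ => by ring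
    rw [h1, hv]
    simp
  have h2 : ∑ a', v a' * (2 * ∑ i, (∑ j, wt i j * C a' j) *
      (∑ j, wt i j * (Pi.single a (1 : ℤ) : Fin r → ℤ) j)) = 0 := by
    have h3 : ∀ a', v a' * (2 * ∑ i, (∑ j, wt i j * C a' j) *
        (∑ j, wt i j * (Pi.single a (1 : ℤ) : Fin r → ℤ) j)) =
        ∑ i, 2 * (∑ j, wt i j * (Pi.single a (1 : ℤ) : Fin r → ℤ) j) *
          (v a' * (∑ j, wt i j * C a' j)) := by
      intro a'
      rw [Finset.mul_sum, Finset.mul_sum]
      exact Finset.sum_congr rfl fun i _ => by ring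
    rw [Finset.sum_congr rfl fun a' _ => h3 a', Finset.sum_comm]
    refine Finset.sum_eq_zero fun i _ => ?_
    rw [← Finset.mul_sum, hsum i, mul_zero]
  simp only [hid] at h2
  rw [Finset.sum_eq_single a] at h2
  · rw [Pi.single_eq_same, one_mul] at h2
    rcases mul_eq_zero.1 h2 with h3 | h3
    · exact h3
    · exfalso
      -- a basis vector in the support of `E a`
      obtain ⟨i, hi⟩ : ∃ i, wt i = Pi.single a 1 := by
        by_contra hcon
        push Not at hcon
        apply (hR.tri a).e_ne_zero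
        have h4 := hR.wE a
        have h5 : {x | ∃ i, wt i = Pi.single a 1 ∧ b i = x} = ∅ := by
          ext x
          simp only [Set.mem_setOf_eq, Set.mem_empty_iff_false, iff_false, not_exists, not_and]
          intro i hi
          exact absurd hi (hcon i)
        unfold W at h4
        rw [h5, Submodule.span_empty] at h4
        exact (Submodule.mem_bot k).1 h4
      have h6 := (Finset.sum_eq_zero_iff_of_nonneg fun i _ => sq_nonneg _).1 h3 i
        (Finset.mem_univ i)
      rw [hi, sq_eq_zero_iff, Finset.sum_eq_single a] at h6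
      · rw [Pi.single_eq_same, one_mul, hdiag] at h6
        norm_num at h6
      · intro j _ hj
        rw [Pi.single_eq_of_ne hj, zero_mul]
      · intro h
        exact absurd (Finset.mem_univ _) h
  · intro a' _ ha'
    rw [Pi.single_eq_of_ne ha', zero_mul, mul_zero]
  · intro h
    exact absurd (Finset.mem_univ _) h

end alg

section tor

variable {k L : Type} [Field k] [LieRing L] [LieAlgebra k L] {n r : ℕ}
  (b : Basis (Fin n) k L) (wt : Fin n → Fin r → ℤ)

theorem tor_b (t : Fin r → kˣ) (i : Fin n) :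
    tor b wt t (b i) = ((∏ a, t a ^ wt i a : kˣ) : k) • b i := by
  unfold tor
  rw [Basis.constr_basis]

theorem tor_mul (t t' : Fin r → kˣ) : tor b wt (t * t') = tor b wt t * tor b wt t' := by
  refine b.ext fun i => ?_
  rw [Module.End.mul_apply, tor_b, tor_b, map_smul, tor_b, smul_smul, ← Units.val_mul,
    ← Finset.prod_mul_distrib]
  congr 2
  refine Finset.prod_congr rfl fun a _ => ?_
  rw [Pi.mul_apply, mul_zpow, mul_comm]

theorem tor_one : tor b wt 1 = 1 := by
  refine b.ext fun i => ?_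
  rw [tor_b, Module.End.one_apply]
  simp

variable {b wt} {G : Type} [Group G]

/-- the torus elements which are in the group -/
def torS (b : Basis (Fin n) k L) (wt : Fin n → Fin r → ℤ) (ρ : G →* Module.End k L) :
    Subgroup (Fin r → kˣ) where
  carrier := {t | ∃ g, ρ g = tor b wt t}
  mul_mem' := by
    rintro t t' ⟨g, hg⟩ ⟨g', hg'⟩
    exact ⟨g * g', by rw [map_mul, hg, hg', tor_mul]⟩
  one_mem' := ⟨1, by rw [map_one, tor_one]⟩
  inv_mem' := by
    rintro t ⟨g, hg⟩
    refine ⟨g⁻¹, ?_⟩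
    have h1 : ρ g⁻¹ * ρ g = 1 := by rw [← map_mul, inv_mul_cancel, map_one]
    have h2 : tor b wt t * tor b wt t⁻¹ = 1 := by rw [← tor_mul, mul_inv_cancel, tor_one]
    calc ρ g⁻¹ = ρ g⁻¹ * (tor b wt t * tor b wt t⁻¹) := by rw [h2, mul_one]
      _ = tor b wt t⁻¹ := by rw [← hg, ← mul_assoc, h1, one_mul]

theorem mem_torS {ρ : G →* Module.End k L} {t : Fin r → kˣ} :
    t ∈ torS b wt ρ ↔ ∃ g, ρ g = tor b wt t := Iff.rfl

end tor

section pow

variable {k L : Type} [Field k] [CharZero k] [LieRing L] [LieAlgebra k L] {n r : ℕ}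
  {b : Basis (Fin n) k L} {wt : Fin n → Fin r → ℤ} {E F H : Fin r → L} {G : Type} [Group G]
  {ρ : G →* Module.End k L} [LieAlgebra.IsKilling k L] (hR : Rt b wt E F H)

include hR in
/-- **[RP-POW]** A power of every torus element is in the group. -/
theorem pow_mem
    (hT : ∀ h x y : L, IsSl2Triple h x y → ∀ s : kˣ, ∃ g : G, ∀ i : ℤ, ∀ v ∈ egs k h i,
      ρ g v = ((s ^ i : kˣ) : k) • v) :
    ∃ M : ℕ, 0 < M ∧ ∀ t : Fin r → kˣ, ∃ g : G, ρ g = tor b wt (fun a => t a ^ M) := by
  obtain ⟨C, hC, hdet⟩ := exists_cartan hR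
  -- the tori of the simple triples
  have h1 : ∀ a (s : kˣ), (fun j => s ^ C a j) ∈ torS b wt ρ := by
    intro a s
    obtain ⟨g, hg⟩ := hT (H a) (E a) (F a) (hR.tri a) s
    refine ⟨g, b.ext fun i => ?_⟩
    have h2 : b i ∈ egs k (H a) (∑ j, wt i j * C a j) := by
      unfold egs
      rw [Module.End.mem_eigenspace_iff, LieAlgebra.ad_apply]
      exact hC a i
    rw [hg _ _ h2, tor_b]
    congr 2
    have h3 : ∀ (c : Fin r → ℤ), s ^ (∑ j, c j) = ∏ j, s ^ c j := by
      intro c
      induction (Finset.univ : Finset (Fin r)) using Finset.induction_on with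
      | empty => simp
      | insert a t ha ih => rw [Finset.sum_insert ha, Finset.prod_insert ha, zpow_add, ih]
    rw [h3]
    refine Finset.prod_congr rfl fun j _ => ?_
    rw [← zpow_mul, mul_comm]
  -- the adjugate matrix
  have h4 : ∀ t : Fin r → kˣ, (fun l => t l ^ C.det) ∈ torS b wt ρ := by
    intro t
    have h5 : (fun l => t l ^ C.det) =
        ∏ j, ∏ a, (fun l => t j ^ C a l : Fin r → kˣ) ^ (C.adjugate j a) := by
      funext l
      rw [Finset.prod_apply]
      simp only [Finset.prod_apply, Pi.pow_apply]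
      have h6 : ∀ j, ∏ a, (t j ^ C a l) ^ (C.adjugate j a) = t j ^ ((C.adjugate * C) j l) := by
        intro j
        have h3 : ∀ (c : Fin r → ℤ), t j ^ (∑ a, c a) = ∏ a, t j ^ c a := by
          intro c
          induction (Finset.univ : Finset (Fin r)) using Finset.induction_on with
          | empty => simp
          | insert a u ha ih => rw [Finset.sum_insert ha, Finset.prod_insert ha, zpow_add, ih]
        rw [Matrix.mul_apply, h3]
        refine Finset.prod_congr rfl fun a _ => ?_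
        rw [← zpow_mul, mul_comm]
      rw [Finset.prod_congr rfl fun j _ => h6 j, Matrix.adjugate_mul]
      rw [Finset.prod_eq_single l]
      · simp
      · intro j _ hj
        rw [Matrix.smul_apply, Matrix.one_apply_ne hj, smul_zero, zpow_zero]
      · intro h
        exact absurd (Finset.mem_univ _) h
    rw [h5]
    refine Subgroup.prod_mem _ fun j _ => Subgroup.prod_mem _ fun a _ => ?_
    exact Subgroup.zpow_mem _ (h1 a (t j)) _
  refine ⟨C.det.natAbs, Int.natAbs_pos.2 hdet, fun t => ?_⟩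
  rw [← mem_torS]
  rcases Int.natAbs_eq C.det with h5 | h5
  · have h6 := h4 t
    rw [h5] at h6
    simpa only [zpow_natCast] using h6
  · have h6 := h4 t
    rw [h5] at h6
    have h7 := (torS b wt ρ).inv_mem h6
    have h8 : (fun l => t l ^ (-(C.det.natAbs : ℤ)))⁻¹ = fun a => t a ^ C.det.natAbs := by
      funext l
      rw [Pi.inv_apply, zpow_neg, inv_inv, zpow_natCast]
    rwa [h8] at h7

end pow

end Vale.Agent.P092.H720.Rp
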