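import Vale.Agent.P092.H720.Rp.Ra
import Vale.Agent.P092.H710.Rp.Kak
import Vale.Agent.P092.H45.Rp.Main

/-!
P092, project RP (helper720), [RP-AUT]: the Cartan decomposition of the group of all automorphisms,
and: the exponentials generate a subgroup of finite index.
-/

set_option linter.all false

open Filter Topology Module

namespace Vale.Agent.P092.H720.Rp

open Vale.Agent.P092.H213.Rp Vale.Agent.P092.H542.Rp
open Vale.Agent.P092.H710.Rp (Bo Lv uni eu_bound end_bound au_rho isAut_au)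

variable {k : Type} [NontriviallyNormedField k] [CharZero k] {L : Type} [LieRing L]
  [LieAlgebra k L] {n r : ℕ} {b : Basis (Fin n) k L} {wt : Fin n → Fin r → ℤ} {E F H : Fin r → L}

/-- the tautological representation of the group of automorphisms -/
def rhoA (k L : Type) [Field k] [LieRing L] [LieAlgebra k L] : AutS k L →* Module.End k L :=
  (Units.coeHom _).comp (AutS k L).subtype

theorem isAut_mul {S T : Module.End k L} (hS : IsAut S) (hT : IsAut T) : IsAut (S * T) :=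
  ⟨hS.1.mul hT.1, fun x y => by
    rw [Module.End.mul_apply, Module.End.mul_apply, Module.End.mul_apply, hT.2, hS.2]⟩

theorem isAut_eu [Module.Finite k L] {x : L} (hx : Nil k x) : IsAut (eu k x) := by
  obtain ⟨u, hu⟩ := exists_eu hx
  exact ⟨⟨u, hu⟩, fun a c => Vale.Agent.P092.H144.Rp.eu_lie hx a c⟩

theorem isAut_rhoA (u : AutS k L) : IsAut (rhoA k L u) := isAut_of u.2

/-- every automorphism is `κ₁ m κ₂` with bounded automorphisms `κ₁`, `κ₂` -/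
theorem bigA [LieAlgebra.IsKilling k L] (hR : Rt b wt E F H) : ∃ C₀ : ℝ, ∀ T : Module.End k L,
      IsAut T → ∃ κ₁ κ₁i κ₂ κ₂i m : Module.End k L, IsAut κ₁ ∧ IsAut κ₂ ∧
      κ₁ * κ₁i = 1 ∧ κ₂ * κ₂i = 1 ∧
      (∀ i j, ‖LinearMap.toMatrix b b κ₁ i j‖ ≤ C₀) ∧
      (∀ i j, ‖LinearMap.toMatrix b b κ₁i i j‖ ≤ C₀) ∧
      (∀ i j, ‖LinearMap.toMatrix b b κ₂ i j‖ ≤ C₀) ∧
      (∀ i j, ‖LinearMap.toMatrix b b κ₂i i j‖ ≤ C₀) ∧
      IsAut m ∧ (∀ x ∈ W b wt 0, m x ∈ W b wt 0) ∧ T = κ₁ * m * κ₂ := by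
  classical
  haveI : Module.Finite k L := Module.Finite.of_basis b
  have hlie : ∀ g (x y : L), rhoA k L g ⁅x, y⁆ = ⁅rhoA k L g x, rhoA k L g y⁆ :=
    fun g => g.2
  have hfull : ∀ x : L, Nil k x → ∃ g, rhoA k L g = eu k x := by
    intro x hx
    obtain ⟨u, hu⟩ := exists_eu hx
    exact ⟨⟨u, ES_le (Subgroup.subset_closure ⟨x, hx, hu⟩)⟩, hu⟩
  obtain ⟨h₀, h0⟩ := Vale.Agent.P092.H710.Rp.exists_h0 hR
  obtain ⟨Fs, C, hC, hF⟩ := uni hlie hfull hR h0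
  choose c hc hcb using fun a : AutS k L => end_bound b (rhoA k L a)
  obtain ⟨Ce, hCe, he⟩ := eu_bound b C
  set CF : ℝ := ∑ a ∈ Fs, (c a + c a⁻¹) with hCF
  have hCF0 : 0 ≤ CF := Finset.sum_nonneg fun a _ => add_nonneg (hc a) (hc a⁻¹)
  have hle : ∀ a ∈ Fs, c a + c a⁻¹ ≤ CF := fun a ha =>
    Finset.single_le_sum (f := fun a => c a + c a⁻¹)
      (fun a _ => add_nonneg (hc a) (hc a⁻¹)) ha
  have hb1 : ∀ a ∈ Fs, Bo b CF (rhoA k L a) := fun a ha =>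
    Bo.mono (hcb a) ((le_add_of_nonneg_right (hc a⁻¹)).trans (hle a ha))
  have hb2 : ∀ a ∈ Fs, Bo b CF (rhoA k L a⁻¹) := fun a ha =>
    Bo.mono (hcb a⁻¹) ((le_add_of_nonneg_left (hc a)).trans (hle a ha))
  refine ⟨CF * Ce, fun T hT => ?_⟩
  obtain ⟨v, hvA, rfl⟩ := exists_aut hT
  obtain ⟨g, hg⟩ : ∃ g : AutS k L, rhoA k L g = (v : Module.End k L) := ⟨⟨v, hvA⟩, rfl⟩
  rw [← hg]
  obtain ⟨a, ha, a', ha', z₁, hz₁, z₂, hz₂, m, m', hm, e, n1, n2⟩ := hF g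
  have hn1 : Nil k z₁ := nil_neg h0.spl hz₁
  have hn2 : Nil k z₂ := nil_pos h0.spl hz₂
  have h00 : 0 ≤ CF * Ce := mul_nonneg hCF0 hCe
  have B1 : Bo b Ce (eu k z₁) := he z₁ n1
  have B1' : Bo b Ce (eu k (-z₁)) := he (-z₁) (by rw [Vale.Agent.P092.H710.Rp.nm_neg]; exact n1)
  have B2 : Bo b Ce (eu k z₂) := he z₂ n2
  have B2' : Bo b Ce (eu k (-z₂)) := he (-z₂) (by rw [Vale.Agent.P092.H710.Rp.nm_neg]; exact n2)
  refine ⟨rhoA k L a⁻¹ * eu k z₁, eu k (-z₁) * rhoA k L a, eu k z₂ * rhoA k L a'⁻¹,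
    rhoA k L a' * eu k (-z₂), m, isAut_mul (isAut_rhoA _) (isAut_eu hn1),
    isAut_mul (isAut_eu hn2) (isAut_rhoA _), ?_, ?_,
    Bo.entry (Bo.mul hCF0 (hb2 a ha) B1) h00,
    Bo.entry (by rw [mul_comm CF]; exact Bo.mul hCe B1' (hb1 a ha)) h00,
    Bo.entry (by rw [mul_comm CF]; exact Bo.mul hCe B2 (hb2 a' ha')) h00,
    Bo.entry (Bo.mul hCF0 (hb1 a' ha') B2') h00,
    isAut_au hm.au, fun x hx => hm.W0 hR h0 hx, ?_⟩
  · calc rhoA k L a⁻¹ * eu k z₁ * (eu k (-z₁) * rhoA k L a) =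
        rhoA k L a⁻¹ * (eu k z₁ * eu k (-z₁)) * rhoA k L a := by
          simp only [mul_assoc]
      _ = 1 := by rw [eu_mul_neg hn1, mul_one, ← map_mul, inv_mul_cancel, map_one]
  · calc eu k z₂ * rhoA k L a'⁻¹ * (rhoA k L a' * eu k (-z₂)) =
        eu k z₂ * (rhoA k L a'⁻¹ * rhoA k L a') * eu k (-z₂) := by
          simp only [mul_assoc]
      _ = 1 := by rw [← map_mul, inv_mul_cancel, map_one, mul_one, eu_mul_neg hn2]
  · calc rhoA k L g = rhoA k L (a⁻¹ * (a * g * a') * a'⁻¹) := by congr 1; group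
      _ = rhoA k L a⁻¹ * (eu k z₁ * m * eu k z₂) * rhoA k L a'⁻¹ := by rw [map_mul, map_mul, e]
      _ = _ := by simp only [mul_assoc]

/-- **Cartan decomposition of the group of automorphisms** with bounded factors. -/
theorem carA [ProperSpace k] [LieAlgebra.IsKilling k L] (hR : Rt b wt E F H) (π : kˣ)
    (hπ : 1 < ‖(π : k)‖) : ∃ C : ℝ, ∀ T : Module.End k L, IsAut T →
      ∃ (κ κi κ' κi' : Module.End k L) (t : Fin r → ℤ),
      IsAut κ ∧ IsAut κ' ∧ κ * κi = 1 ∧ κ' * κi' = 1 ∧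
      (∀ i j, ‖LinearMap.toMatrix b b κ i j‖ ≤ C) ∧
      (∀ i j, ‖LinearMap.toMatrix b b κi i j‖ ≤ C) ∧
      (∀ i j, ‖LinearMap.toMatrix b b κ' i j‖ ≤ C) ∧
      (∀ i j, ‖LinearMap.toMatrix b b κi' i j‖ ≤ C) ∧
      T = κ * tor b wt (fun a => π ^ t a) * κ' := by
  obtain ⟨C₀, hU⟩ := bigA hR
  obtain ⟨C, hC⟩ := Vale.Agent.P092.H452.Rp.levi0 hR π hπ
  have hle1 : (n : ℝ) * (|C₀| * |C|) ≤ n * (|C₀| * |C|) + |C₀| := by
    linarith [abs_nonneg C₀]
  have hle2 : |C₀| ≤ (n : ℝ) * (|C₀| * |C|) + |C₀| := by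
    have : 0 ≤ (n : ℝ) * (|C₀| * |C|) := by positivity
    linarith
  refine ⟨n * (|C₀| * |C|) + |C₀|, fun T hT => ?_⟩
  obtain ⟨κ₁, κ₁i, κ₂, κ₂i, m, a1, a2, e1, e2, b1, b2, b3, b4, hm, h0, hg⟩ := hU T hT
  obtain ⟨κ, κi, t, hκ, g1, g2, hb, hmt⟩ := hC m hm h0
  refine ⟨κ₁ * κ, κi * κ₁i, κ₂, κ₂i, t, isAut_mul a1 hκ, a2, ?_, e2, fun i j => ?_,
    fun i j => ?_, fun i j => ?_, fun i j => ?_, ?_⟩
  · rw [mul_assoc, ← mul_assoc κ, g1, one_mul, e1]
  · exact (Vale.Agent.P092.H452.Rp.entries_mul _ _ (abs_nonneg C₀)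
      (fun i j => (b1 i j).trans (le_abs_self _))
      (fun i j => (hb i j).1.trans (le_abs_self _)) i j).trans hle1
  · have := Vale.Agent.P092.H452.Rp.entries_mul κi κ₁i (abs_nonneg C)
      (fun i j => (hb i j).2.trans (le_abs_self _))
      (fun i j => (b2 i j).trans (le_abs_self _)) i j
    rw [mul_comm |C|] at this
    exact this.trans hle1
  · exact (b3 i j).trans ((le_abs_self _).trans hle2)
  · exact (b4 i j).trans ((le_abs_self _).trans hle2)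
  · rw [hg, hmt, mul_assoc κ₁ κ]

/-- **The exponentials generate a subgroup of finite index in the group of automorphisms** of a
simple isotropic Lie algebra over a locally compact field of characteristic zero. -/
theorem es_finite [ProperSpace k] (hs : LieAlgebra.IsSimple k L)
    (iso : ∃ x : L, x ≠ 0 ∧ Nil k x) (b₀ : Basis (Fin n) k L) :
    Finite (AutS k L ⧸ (ES k L).subgroupOf (AutS k L)) := by
  haveI : Module.Finite k L := Module.Finite.of_basis b₀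
  haveI := hs
  obtain ⟨x, hx0, hx⟩ := iso
  obtain ⟨r, b, wt, E, F, H, hR⟩ := Vale.Agent.P092.H45.Rp.exists_rt (k := k) (L := L)
    Vale.Agent.P092.H45.Rp.jm hx0 hx (n := n)
    (by rw [finrank_eq_card_basis b₀, Fintype.card_fin])
  obtain ⟨c, hc⟩ := NormedField.exists_one_lt_norm k
  have hc0 : c ≠ 0 := by
    rintro rfl
    rw [norm_zero] at hc
    linarith
  obtain ⟨C, hC⟩ := carA hR (Units.mk0 c hc0) hc
  exact finite_quo hs ⟨x, hx0, hx⟩ hR (Units.mk0 c hc0) C hC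

section top

variable {G : Type} [Group G] [TopologicalSpace G] {ρ : G →* Module.End k L}

theorem RA.fin' [ProperSpace k] (h : RA b ρ) : (Ng ρ).FiniteIndex :=
  h.fin (es_finite h.simple h.iso b)

end top

end Vale.Agent.P092.H720.Rp
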