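import Vale.Agent.P092.H144.Rp.Span
import Vale.Agent.P092.H213.Rp.Crv
import Vale.Agent.P092.H237.Rp.Tor
import Vale.Agent.P092.H268.Rp.JM
import Vale.Agent.P092.H268.Rp.Spl
import Vale.Agent.P092.H720.Rp.Pow
import Mathlib.GroupTheory.Index
import Mathlib.Topology.Algebra.Group.Basic
import Mathlib.Topology.MetricSpace.ProperSpace

/-!
P092, project RP (helper720), [RP-AUT]: the group generated by the exponentials of the ad-nilpotent
elements is open, normal and of finite index in the group of all automorphisms.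
-/

set_option linter.all false

open Filter Topology Module
open scoped Pointwise

namespace Vale.Agent.P092.H720.Rp

open Vale.Agent.P092.H213.Rp
open Vale.Agent.P092.H144.Rp (eu_lie eu_inj_right eu_conj' eu_smul_apply span_nil)

section alg

variable (k L : Type) [Field k] [LieRing L] [LieAlgebra k L]

/-- the group of automorphisms -/
def AutS : Subgroup (Module.End k L)ˣ where
  carrier := {u | ∀ x y : L, (u : Module.End k L) ⁅x, y⁆ =
    ⁅(u : Module.End k L) x, (u : Module.End k L) y⁆}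
  mul_mem' := by
    intro u v hu hv x y
    simp only [Set.mem_setOf_eq] at hu hv
    rw [Units.val_mul, Module.End.mul_apply, Module.End.mul_apply, Module.End.mul_apply, hv, hu]
  one_mem' := fun x y => by simp
  inv_mem' := by
    intro u hu x y
    simp only [Set.mem_setOf_eq] at hu
    have h1 : ∀ z, (u : Module.End k L) (((u⁻¹ : (Module.End k L)ˣ) : Module.End k L) z) = z := fun z => by
      rw [← Module.End.mul_apply, Units.mul_inv, Module.End.one_apply]
    have h2 : ∀ z, ((u⁻¹ : (Module.End k L)ˣ) : Module.End k L) ((u : Module.End k L) z) = z :=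
      fun z => by rw [← Module.End.mul_apply, Units.inv_mul, Module.End.one_apply]
    have h3 := hu (((u⁻¹ : (Module.End k L)ˣ) : Module.End k L) x)
      (((u⁻¹ : (Module.End k L)ˣ) : Module.End k L) y)
    rw [h1, h1] at h3
    rw [← h3, h2]

/-- the group generated by the exponentials of the ad-nilpotent elements -/
def ES : Subgroup (Module.End k L)ˣ :=
  Subgroup.closure {u | ∃ x : L, Nil k x ∧ (u : Module.End k L) = eu k x}

/-- the tautological representation -/
def rhoE : ES k L →* Module.End k L := (Units.coeHom _).comp (ES k L).subtype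

variable {k L}

theorem rhoE_apply (u : ES k L) : rhoE k L u = ((u : (Module.End k L)ˣ) : Module.End k L) := rfl

theorem mem_AutS {u : (Module.End k L)ˣ} : u ∈ AutS k L ↔
    ∀ x y : L, (u : Module.End k L) ⁅x, y⁆ = ⁅(u : Module.End k L) x, (u : Module.End k L) y⁆ :=
  Iff.rfl

theorem isAut_of {u : (Module.End k L)ˣ} (h : u ∈ AutS k L) : IsAut (u : Module.End k L) :=
  ⟨u.isUnit, h⟩

theorem exists_aut {T : Module.End k L} (h : IsAut T) : ∃ u ∈ AutS k L, (u : Module.End k L) = T := by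
  obtain ⟨u, rfl⟩ := h.1
  exact ⟨u, h.2, rfl⟩

variable [CharZero k] [Module.Finite k L]

theorem exists_eu {x : L} (hx : Nil k x) : ∃ u : (Module.End k L)ˣ, (u : Module.End k L) = eu k x := by
  have h1 := eu_inj_right hx
  have h2 := eu_inj_right (Vale.Agent.P092.H144.Rp.Nil.neg hx)
  rw [neg_neg] at h2
  exact ⟨⟨eu k x, eu k (-x), h2, h1⟩, rfl⟩

theorem ES_le : ES k L ≤ AutS k L := by
  unfold ES
  rw [Subgroup.closure_le]
  rintro u ⟨x, hx, hu⟩
  intro a c
  rw [hu]
  exact eu_lie hx a c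

theorem es_conj {u s : (Module.End k L)ˣ} (hu : u ∈ AutS k L) (hs : s ∈ ES k L) :
    u * s * u⁻¹ ∈ ES k L := by
  have h : s ∈ Subgroup.closure {u : (Module.End k L)ˣ | ∃ x : L, Nil k x ∧
    (u : Module.End k L) = eu k x} := hs
  induction h using Subgroup.closure_induction with
  | mem s hs' =>
    obtain ⟨x, hx, e⟩ := hs'
    refine Subgroup.subset_closure ⟨(u : Module.End k L) x, ?_, ?_⟩
    · refine Vale.Agent.P092.H144.Rp.Nil.map hu (fun v => ?_) hx
      exact ⟨((u⁻¹ : (Module.End k L)ˣ) : Module.End k L) v, by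
        rw [← Module.End.mul_apply, Units.mul_inv, Module.End.one_apply]⟩
    · refine LinearMap.ext fun v => ?_
      rw [Units.val_mul, Units.val_mul, Module.End.mul_apply, Module.End.mul_apply, e,
        eu_conj' hu, ← Module.End.mul_apply (u : Module.End k L), Units.mul_inv,
        Module.End.one_apply]
  | one => rw [mul_one, mul_inv_cancel]; exact Subgroup.one_mem _
  | mul a c ha hc iha ihc =>
    have e : u * (a * c) * u⁻¹ = (u * a * u⁻¹) * (u * c * u⁻¹) := by group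
    rw [e]
    exact Subgroup.mul_mem _ (iha ha) (ihc hc)
  | inv a ha iha =>
    have e : u * a⁻¹ * u⁻¹ = (u * a * u⁻¹)⁻¹ := by group
    rw [e]
    exact Subgroup.inv_mem _ (iha ha)

theorem es_normal : ((ES k L).subgroupOf (AutS k L)).Normal where
  conj_mem := by
    rintro ⟨s, hs⟩ h ⟨u, hu⟩
    rw [Subgroup.mem_subgroupOf] at h ⊢
    exact es_conj hu h

end alg

section tor

variable {k L : Type} [Field k] [LieRing L] [LieAlgebra k L] {n r : ℕ}
  {b : Basis (Fin n) k L} {wt : Fin n → Fin r → ℤ}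

theorem tor_W (t : Fin r → kˣ) {μ : Fin r → ℤ} {x : L} (hx : x ∈ W b wt μ) :
    tor b wt t x = ((∏ a, t a ^ μ a : kˣ) : k) • x := by
  refine Submodule.span_induction
    (p := fun x _ => tor b wt t x = ((∏ a, t a ^ μ a : kˣ) : k) • x) ?_ ?_ ?_ ?_ hx
  · rintro _ ⟨i, hi, rfl⟩
    rw [tor_b, hi]
  · rw [map_zero, smul_zero]
  · intro x y _ _ h1 h2
    rw [map_add, h1, h2, smul_add]
  · intro a x _ h
    rw [map_smul, h, smul_comm]

theorem tor_lie (hg : ∀ μ ν : Fin r → ℤ, ∀ x ∈ W b wt μ, ∀ y ∈ W b wt ν, ⁅x, y⁆ ∈ W b wt (μ + ν))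
    (t : Fin r → kˣ) (x y : L) : tor b wt t ⁅x, y⁆ = ⁅tor b wt t x, tor b wt t y⁆ := by
  have key : ∀ i j, tor b wt t ⁅b i, b j⁆ = ⁅tor b wt t (b i), tor b wt t (b j)⁆ := by
    intro i j
    rw [tor_W t (hg _ _ _ (Submodule.subset_span ⟨i, rfl, rfl⟩) _
      (Submodule.subset_span ⟨j, rfl, rfl⟩)), tor_b, tor_b, smul_lie, lie_smul, smul_smul,
      ← Units.val_mul, ← Finset.prod_mul_distrib]
    congr 2
    refine Finset.prod_congr rfl fun a _ => ?_
    rw [Pi.add_apply, zpow_add]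
  have e1 : ∀ i, ∀ y, tor b wt t ⁅b i, y⁆ = ⁅tor b wt t (b i), tor b wt t y⁆ := by
    intro i y
    have h1 : (tor b wt t) ∘ₗ (LieAlgebra.ad k L (b i) : L →ₗ[k] L) =
        (LieAlgebra.ad k L (tor b wt t (b i)) : L →ₗ[k] L) ∘ₗ tor b wt t := by
      refine b.ext fun j => ?_
      simpa using key i j
    have h2 := LinearMap.congr_fun h1 y
    simpa using h2
  have h1 : (tor b wt t) ∘ₗ (-(LieAlgebra.ad k L y : L →ₗ[k] L)) =
      (-(LieAlgebra.ad k L (tor b wt t y) : L →ₗ[k] L)) ∘ₗ tor b wt t := by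
    refine b.ext fun i => ?_
    have h3 := e1 i y
    simp only [LinearMap.comp_apply, LinearMap.neg_apply, LieAlgebra.ad_apply,
      lie_skew] at h3 ⊢
    exact h3
  have h2 := LinearMap.congr_fun h1 x
  simp only [LinearMap.comp_apply, LinearMap.neg_apply, LieAlgebra.ad_apply,
    lie_skew] at h2
  exact h2

/-- the torus in the group of automorphisms -/
noncomputable def torA (hg : ∀ μ ν : Fin r → ℤ, ∀ x ∈ W b wt μ, ∀ y ∈ W b wt ν,
    ⁅x, y⁆ ∈ W b wt (μ + ν)) : (Fin r → kˣ) →* AutS k L where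
  toFun t := ⟨⟨tor b wt t, tor b wt t⁻¹, by rw [← tor_mul, mul_inv_cancel, tor_one],
    by rw [← tor_mul, inv_mul_cancel, tor_one]⟩, fun x y => tor_lie hg t x y⟩
  map_one' := Subtype.ext (Units.ext (tor_one b wt))
  map_mul' t t' := Subtype.ext (Units.ext (tor_mul b wt t t'))

theorem torA_apply (hg : ∀ μ ν : Fin r → ℤ, ∀ x ∈ W b wt μ, ∀ y ∈ W b wt ν,
    ⁅x, y⁆ ∈ W b wt (μ + ν)) (t : Fin r → kˣ) :
    ((torA hg t : (Module.End k L)ˣ) : Module.End k L) = tor b wt t := rfl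

end tor


section crv

variable {k : Type} [NontriviallyNormedField k] [CharZero k] {L : Type} [LieRing L]
  [LieAlgebra k L] {n : ℕ}

/-- the exponential curves -/
theorem crvE [Module.Finite k L] (b : Basis (Fin n) k L) (h0 : 0 < finrank k L) {z : L}
    (hz : Nil k z) : Crv b (rhoE k L) ⊤ z := by
  choose u hu using fun t : k => exists_eu (Vale.Agent.P092.H144.Rp.Nil.smul hz t)
  refine ⟨fun t => ⟨u t, Subgroup.subset_closure ⟨t • z, Vale.Agent.P092.H144.Rp.Nil.smul hz t,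
    hu t⟩⟩, fun _ => trivial, ?_, fun i j => ?_⟩
  · refine Subtype.ext (Units.ext (LinearMap.ext fun v => ?_))
    show (u 0 : Module.End k L) v = v
    rw [hu, eu_smul_apply, Finset.sum_range_succ', Finset.sum_eq_zero]
    · simp
    · intro i _
      rw [pow_succ, mul_zero, zero_smul]
  · have e : (fun t : k => LinearMap.toMatrix b b (rhoE k L ⟨u t, Subgroup.subset_closure
        ⟨t • z, Vale.Agent.P092.H144.Rp.Nil.smul hz t, hu t⟩⟩) i j) =
        fun t => ∑ m ∈ Finset.range (finrank k L + 1), t ^ m *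
          (((m.factorial : k)⁻¹) * LinearMap.toMatrix b b ((LieAlgebra.ad k L z) ^ m) i j) := by
      funext t
      rw [rhoE_apply, LinearMap.toMatrix_apply]
      show b.repr ((u t : Module.End k L) (b j)) i = _
      rw [hu, eu_smul_apply, map_sum, Finsupp.finsetSum_apply]
      refine Finset.sum_congr rfl fun m _ => ?_
      rw [map_smul, map_smul, Finsupp.smul_apply, Finsupp.smul_apply, LinearMap.toMatrix_apply,
        smul_eq_mul, smul_eq_mul]
    rw [e]
    have h1 : ∀ m ∈ Finset.range (finrank k L + 1), HasStrictDerivAt (fun t : k => t ^ m *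
        (((m.factorial : k)⁻¹) * LinearMap.toMatrix b b ((LieAlgebra.ad k L z) ^ m) i j))
        ((m : k) * 0 ^ (m - 1) *
        (((m.factorial : k)⁻¹) * LinearMap.toMatrix b b ((LieAlgebra.ad k L z) ^ m) i j)) 0 :=
      fun m _ => (hasStrictDerivAt_pow m (0 : k)).mul_const _
    have h2 := HasStrictDerivAt.fun_sum h1
    refine h2.congr_deriv ?_
    rw [Finset.sum_eq_single 1]
    · simp
    · intro m _ hm
      rcases Nat.eq_zero_or_pos m with h | h
      · subst h
        simp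
      · rw [zero_pow (by omega)]
        simp
    · intro h
      exact absurd (Finset.mem_range.2 (by omega)) h

/-- **The automorphisms near `1` are products of exponentials.** -/
theorem es_nhds [CompleteSpace k] (hs : LieAlgebra.IsSimple k L)
    (iso : ∃ x : L, x ≠ 0 ∧ Nil k x) (b : Basis (Fin n) k L) :
    ∀ᶠ M in 𝓝 (1 : Matrix (Fin n) (Fin n) k), ∀ u ∈ AutS k L,
      LinearMap.toMatrix b b (u : Module.End k L) = M → u ∈ ES k L := by
  haveI : Module.Finite k L := Module.Finite.of_basis b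
  haveI := hs
  have h0 : 0 < finrank k L := by
    obtain ⟨x, hx, -⟩ := iso
    haveI : Nontrivial L := ⟨x, 0, hx⟩
    exact finrank_pos
  have hspan : Submodule.span k {x : L | Nil k x} = ⊤ := span_nil hs iso
    (fun x hx hx0 => Vale.Agent.P092.H268.Rp.jm hx hx0)
    (fun h x y t => Vale.Agent.P092.H268.Rp.spl t)
  have h1 := inv hs b (rhoE k L) (fun g x y => ES_le g.2 x y) ⊤ (by
    rw [eq_top_iff, ← hspan]
    exact Submodule.span_mono fun z hz => crvE b h0 hz)
  filter_upwards [h1] with M hM u hu huM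
  obtain ⟨g, -, hg⟩ := hM ⟨(u : Module.End k L), isAut_of hu, huM⟩
  rw [← huM] at hg
  have h2 : ((g : (Module.End k L)ˣ) : Module.End k L) = (u : Module.End k L) :=
    (LinearMap.toMatrix b b).injective hg
  rw [← Units.ext h2]
  exact g.2

end crv

section fin

variable {k : Type} [NontriviallyNormedField k] [CharZero k] {L : Type} [LieRing L]
  [LieAlgebra k L] {n r : ℕ}

/-- automorphisms with bounded matrices -/
def Om (b : Basis (Fin n) k L) (C : ℝ) : Set (AutS k L) :=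
  {u | (∀ i j, ‖LinearMap.toMatrix b b ((u : (Module.End k L)ˣ) : Module.End k L) i j‖ ≤ C) ∧
    ∀ i j, ‖LinearMap.toMatrix b b (((u⁻¹ : AutS k L) : (Module.End k L)ˣ) : Module.End k L) i j‖
      ≤ C}

/-- Bounded sets of automorphisms meet finitely many cosets. -/
theorem fin_bdd [ProperSpace k] (hs : LieAlgebra.IsSimple k L) (iso : ∃ x : L, x ≠ 0 ∧ Nil k x)
    (b : Basis (Fin n) k L) (C : ℝ) :
    ((QuotientGroup.mk : AutS k L → AutS k L ⧸ (ES k L).subgroupOf (AutS k L)) '' Om b C).Finite := by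
  classical
  haveI : CompleteSpace k := inferInstance
  obtain ⟨f, hf⟩ : ∃ f : AutS k L → (Fin n → Fin n → k), ∀ u, f u =
      LinearMap.toMatrix b b ((u : (Module.End k L)ˣ) : Module.End k L) := ⟨_, fun _ => rfl⟩
  have h1 : ∀ᶠ M : Fin n → Fin n → k in 𝓝 (1 : Matrix (Fin n) (Fin n) k), ∀ u ∈ AutS k L,
      LinearMap.toMatrix b b (u : Module.End k L) = M → u ∈ ES k L := es_nhds hs iso b
  obtain ⟨ε, hε, hE⟩ := Metric.eventually_nhds_iff.1 h1
  have hδ : 0 < ε / (n * |C| + 1) := by positivity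
  have htb : TotallyBounded (f '' Om b C) := by
    refine (isCompact_closedBall (0 : Fin n → Fin n → k) |C|).totallyBounded.subset ?_
    rintro _ ⟨u, hu, rfl⟩
    rw [mem_closedBall_zero_iff, pi_norm_le_iff_of_nonneg (abs_nonneg C)]
    intro i
    rw [pi_norm_le_iff_of_nonneg (abs_nonneg C)]
    intro j
    rw [hf]
    exact (hu.1 i j).trans (le_abs_self C)
  obtain ⟨t, htS, htf, hcov⟩ := Metric.finite_approx_of_totallyBounded htb _ hδ
  have htS' : ∀ y, y ∈ t → ∃ u, u ∈ Om b C ∧ f u = y := fun y hy => htS hy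
  choose! g hg using htS'
  refine (htf.image fun y => (QuotientGroup.mk (g y) :
    AutS k L ⧸ (ES k L).subgroupOf (AutS k L))).subset ?_
  rintro _ ⟨u, hu, rfl⟩
  obtain ⟨y, hy⟩ := Set.mem_iUnion.1 (hcov ⟨u, hu, rfl⟩)
  obtain ⟨hyt, hyu⟩ := Set.mem_iUnion.1 hy
  refine ⟨y, hyt, ?_⟩
  rw [QuotientGroup.eq, Subgroup.mem_subgroupOf]
  obtain ⟨hv, hvy⟩ := hg y hyt
  set v := g y
  refine hE (y := LinearMap.toMatrix b b (((v⁻¹ * u : AutS k L) : (Module.End k L)ˣ) :
    Module.End k L)) ?_ _ (v⁻¹ * u).2 rfl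
  have e1 : LinearMap.toMatrix b b (((v⁻¹ * u : AutS k L) : (Module.End k L)ˣ) : Module.End k L) =
      LinearMap.toMatrix b b (((v⁻¹ : AutS k L) : (Module.End k L)ˣ) : Module.End k L) *
      LinearMap.toMatrix b b ((u : (Module.End k L)ˣ) : Module.End k L) := by
    rw [← LinearMap.toMatrix_mul]
    rfl
  have e2 : (1 : Matrix (Fin n) (Fin n) k) =
      LinearMap.toMatrix b b (((v⁻¹ : AutS k L) : (Module.End k L)ˣ) : Module.End k L) *
      LinearMap.toMatrix b b ((v : (Module.End k L)ˣ) : Module.End k L) := by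
    rw [← LinearMap.toMatrix_mul]
    have : (((v⁻¹ : AutS k L) : (Module.End k L)ˣ) : Module.End k L) *
        ((v : (Module.End k L)ˣ) : Module.End k L) = 1 := by
      rw [← Units.val_mul, ← Subgroup.coe_mul, inv_mul_cancel]
      rfl
    rw [this, LinearMap.toMatrix_one]
  have hdist : dist (f u) (f v) < ε / (n * |C| + 1) := by rw [hvy]; exact hyu
  have hent : ∀ l j, ‖LinearMap.toMatrix b b ((u : (Module.End k L)ˣ) : Module.End k L) l j -
      LinearMap.toMatrix b b ((v : (Module.End k L)ˣ) : Module.End k L) l j‖ ≤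
        ε / (n * |C| + 1) := by
    intro l j
    rw [← hf, ← hf, ← dist_eq_norm]
    exact ((dist_le_pi_dist (f u l) (f v l) j).trans (dist_le_pi_dist (f u) (f v) l)).trans
      hdist.le
  have hb : ∀ i j, dist (LinearMap.toMatrix b b (((v⁻¹ * u : AutS k L) : (Module.End k L)ˣ) :
      Module.End k L) i j) ((1 : Matrix (Fin n) (Fin n) k) i j) < ε := by
    intro i j
    rw [dist_eq_norm, e1, e2, ← Matrix.sub_apply, ← Matrix.mul_sub, Matrix.mul_apply]
    refine lt_of_le_of_lt ((norm_sum_le _ _).trans (Finset.sum_le_card_nsmul _ _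
      (|C| * (ε / (n * |C| + 1))) fun l _ => ?_)) ?_
    · rw [norm_mul, Matrix.sub_apply]
      exact mul_le_mul ((hv.2 i l).trans (le_abs_self C)) (hent l j) (norm_nonneg _)
        (abs_nonneg C)
    · rw [Finset.card_univ, Fintype.card_fin, nsmul_eq_mul, ← mul_assoc, mul_div_assoc']
      rw [div_lt_iff₀ (by positivity)]
      nlinarith
  exact (dist_pi_lt_iff hε).2 fun i => (dist_pi_lt_iff hε).2 fun j => hb i j

/-- the torus of a triple is in the group -/
theorem torE [Module.Finite k L] [LieAlgebra.IsKilling k L] (h x y : L) (tr : IsSl2Triple h x y)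
    (s : kˣ) : ∃ g : ES k L, ∀ i : ℤ, ∀ v ∈ egs k h i, rhoE k L g v = ((s ^ i : kˣ) : k) • v := by
  have hx : Nil k x := Vale.Agent.P092.H268.Rp.nil_e tr
  have hy : Nil k y := Vale.Agent.P092.H268.Rp.nil_f tr
  have hE : ∀ {z : L}, Nil k z → ∃ g : ES k L, rhoE k L g = eu k z := by
    intro z hz
    obtain ⟨u, hu⟩ := exists_eu hz
    exact ⟨⟨u, Subgroup.subset_closure ⟨z, hz, hu⟩⟩, hu⟩
  obtain ⟨g1, h1⟩ := hE (Vale.Agent.P092.H144.Rp.Nil.smul hx ((s : k) - 1))
  obtain ⟨g2, h2⟩ := hE hy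
  obtain ⟨g3, h3⟩ := hE (Vale.Agent.P092.H144.Rp.Nil.smul hx ((s : k)⁻¹ - 1))
  obtain ⟨g4, h4⟩ := hE (Vale.Agent.P092.H144.Rp.Nil.neg
    (Vale.Agent.P092.H144.Rp.Nil.smul hy (s : k)))
  refine ⟨g1 * g2 * g3 * g4, fun i v hv => ?_⟩
  have h5 := Vale.Agent.P092.H237.Rp.ta_apply tr (Vale.Agent.P092.H268.Rp.spl tr)
    (Units.ne_zero s) hv
  rw [map_mul, map_mul, map_mul, h1, h2, h3, h4]
  rw [Units.val_zpow_eq_zpow_val]
  exact h5

theorem om_of {b : Basis (Fin n) k L} {C : ℝ} {κ κi : Module.End k L} (hκ : IsAut κ)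
    (e : κ * κi = 1) (b1 : ∀ i j, ‖LinearMap.toMatrix b b κ i j‖ ≤ C)
    (b2 : ∀ i j, ‖LinearMap.toMatrix b b κi i j‖ ≤ C) :
    ∃ w ∈ Om b C, ((w : (Module.End k L)ˣ) : Module.End k L) = κ := by
  obtain ⟨w, hw, rfl⟩ := exists_aut hκ
  have h : κi = ((w⁻¹ : (Module.End k L)ˣ) : Module.End k L) := by
    rw [← one_mul κi, ← Units.inv_mul w, mul_assoc, e, mul_one]
  rw [h] at b2
  exact ⟨⟨w, hw⟩, ⟨b1, b2⟩, rfl⟩

theorem tor_mod {b : Basis (Fin n) k L} {wt : Fin n → Fin r → ℤ}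
    (hg : ∀ μ ν : Fin r → ℤ, ∀ x ∈ W b wt μ, ∀ y ∈ W b wt ν, ⁅x, y⁆ ∈ W b wt (μ + ν)) {M : ℕ}
    (hM : 0 < M) (hpow : ∀ t : Fin r → kˣ, ∃ g : ES k L, rhoE k L g = tor b wt fun a => t a ^ M)
    (π : kˣ) (t : Fin r → ℤ) :
    (torA hg (fun a => π ^ ((t a % M).toNat : ℤ)))⁻¹ * torA hg (fun a => π ^ t a) ∈
      (ES k L).subgroupOf (AutS k L) := by
  have hMz : (0 : ℤ) < M := by exact_mod_cast hM
  rw [← map_inv, ← map_mul, Subgroup.mem_subgroupOf]
  obtain ⟨g, hg'⟩ := hpow fun a => π ^ (t a / M)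
  have e : ((fun a => π ^ ((t a % M).toNat : ℤ) : Fin r → kˣ)⁻¹ * fun a => π ^ t a) =
      fun a => (π ^ (t a / M)) ^ M := by
    funext a
    have h1 := Int.emod_nonneg (t a) hMz.ne'
    rw [Pi.mul_apply, Pi.inv_apply, Int.toNat_of_nonneg h1, ← zpow_neg, ← zpow_add,
      ← zpow_natCast, ← zpow_mul]
    congr 1
    have h2 := Int.emod_add_mul_ediv (t a) M
    nlinarith
  rw [e]
  have h3 : ((torA hg (fun a => (π ^ (t a / M)) ^ M) : AutS k L) : (Module.End k L)ˣ) =
      (g : (Module.End k L)ˣ) := Units.ext hg'.symm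
  rw [h3]
  exact g.2

/-- **[RP-AUT]: the exponentials generate a subgroup of finite index in the group of all
automorphisms.** -/
theorem finite_quo [ProperSpace k] (hs : LieAlgebra.IsSimple k L)
    (iso : ∃ x : L, x ≠ 0 ∧ Nil k x) {b : Basis (Fin n) k L} {wt : Fin n → Fin r → ℤ}
    {E F H : Fin r → L} (hR : Rt b wt E F H) (π : kˣ) (C : ℝ)
    (car : ∀ T : Module.End k L, IsAut T → ∃ (κ κi κ' κi' : Module.End k L) (t : Fin r → ℤ),
      IsAut κ ∧ IsAut κ' ∧ κ * κi = 1 ∧ κ' * κi' = 1 ∧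
      (∀ i j, ‖LinearMap.toMatrix b b κ i j‖ ≤ C) ∧ (∀ i j, ‖LinearMap.toMatrix b b κi i j‖ ≤ C) ∧
      (∀ i j, ‖LinearMap.toMatrix b b κ' i j‖ ≤ C) ∧
      (∀ i j, ‖LinearMap.toMatrix b b κi' i j‖ ≤ C) ∧
      T = κ * tor b wt (fun a => π ^ t a) * κ') :
    Finite (AutS k L ⧸ (ES k L).subgroupOf (AutS k L)) := by
  haveI : Module.Finite k L := Module.Finite.of_basis b
  haveI := hs
  haveI : ((ES k L).subgroupOf (AutS k L)).Normal := es_normal
  obtain ⟨M, hM, hpow⟩ := pow_mem hR (ρ := rhoE k L) torE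
  have hMz : (0 : ℤ) < M := by exact_mod_cast hM
  obtain ⟨q, hq⟩ : ∃ q : AutS k L →* AutS k L ⧸ (ES k L).subgroupOf (AutS k L),
      q = QuotientGroup.mk' _ := ⟨_, rfl⟩
  have hq1 : ∀ u v : AutS k L, v⁻¹ * u ∈ (ES k L).subgroupOf (AutS k L) → q u = q v := by
    intro u v h
    rw [hq]
    exact (QuotientGroup.eq.2 h).symm
  obtain ⟨S1, hS1⟩ : ∃ S1, S1 = q '' Om b C := ⟨_, rfl⟩
  obtain ⟨S2, hS2⟩ : ∃ S2, S2 = Set.range fun s : Fin r → Fin M =>
    q (torA hR.grad fun a => π ^ ((s a : ℕ) : ℤ)) := ⟨_, rfl⟩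
  have hf1 : S1.Finite := by
    rw [hS1, hq]
    exact fin_bdd hs iso b C
  have hf2 : S2.Finite := by
    rw [hS2]
    exact Set.finite_range _
  have hcov : (Set.univ : Set (AutS k L ⧸ (ES k L).subgroupOf (AutS k L))) ⊆ S1 * S2 * S1 := by
    intro z _
    obtain ⟨u, rfl⟩ : ∃ u, q u = z := by rw [hq]; exact QuotientGroup.mk'_surjective _ z
    obtain ⟨κ, κi, κ', κi', t, hκ, hκ', e1, e2, b1, b2, b3, b4, e3⟩ :=
      car _ (isAut_of u.2)
    obtain ⟨w, hw, h1⟩ := om_of hκ e1 b1 b2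
    obtain ⟨w', hw', h1'⟩ := om_of hκ' e2 b3 b4
    rw [← h1, ← h1'] at e3
    have hu : u = w * torA hR.grad (fun a => π ^ t a) * w' := Subtype.ext (Units.ext e3)
    rw [hu, map_mul, map_mul]
    refine Set.mul_mem_mul (Set.mul_mem_mul ?_ ?_) ?_
    · rw [hS1]
      exact ⟨w, hw, rfl⟩
    · rw [hS2]
      refine ⟨fun a => ⟨(t a % M).toNat, ?_⟩, ?_⟩
      · have h1 := Int.emod_lt_of_pos (t a) hMz
        have h2 := Int.emod_nonneg (t a) hMz.ne'
        omega
      · exact (hq1 _ _ (tor_mod hR.grad hM hpow π t)).symm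
    · rw [hS1]
      exact ⟨w', hw', rfl⟩
  exact Set.finite_univ_iff.1 (((hf1.mul hf2).mul hf1).subset hcov)

end fin

end Vale.Agent.P092.H720.Rp
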